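import Vale.Agent.P032X.H350.Surg
import Vale.Agent.P032X.H350.Zero

/-!
# P032: at most one clean contact `e|A` and at most one clean contact `f|C`, triple letters allowed

`PreW.L2x`: a word (without the axioms `two` and `three`, the letters `A`, `C` without isolated points)
in which all clean contacts `e|A` are congruent modulo `6` and all clean contacts `f|C` are congruent
modulo `6` does not exist.  The word is changed by surgery into a word without triple letters.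
-/

open Set Filter Topology

namespace Vale.Agent.P032.H350

open Vale.Agent.P032.Words

/-! ### the orbit of an angle -/

/-- the angles congruent to `Q` -/
def Orb (Q : ℝ) : Set ℝ := {u | ∃ n : ℤ, u = Q + 6 * n}

theorem isClosed_orb (Q : ℝ) : IsClosed (Orb Q) := by
  have e : Orb Q = {u | Real.cos (Real.pi / 3 * (u - Q)) = 1} := by
    ext u
    simp only [Orb, mem_ofPred_eq]
    rw [Real.cos_eq_one_iff]
    have hpi := Real.pi_ne_zero
    constructor
    · rintro ⟨n, rfl⟩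
      exact ⟨n, by ring⟩
    · rintro ⟨n, hn⟩
      refine ⟨n, ?_⟩
      have h1 : Real.pi * (6 * (n : ℝ)) = Real.pi * (u - Q) := by linarith
      have h2 := mul_left_cancel₀ hpi h1
      linarith
  rw [e]
  exact isClosed_eq (by fun_prop) continuous_const

theorem per_orb (Q : ℝ) : Per (Orb Q) := fun u => by
  constructor
  · rintro ⟨n, hn⟩
    exact ⟨n - 1, by push_cast; linarith⟩
  · rintro ⟨n, hn⟩
    exact ⟨n + 1, by push_cast; linarith⟩

theorem orb_eq {Q t : ℝ} (ht : |t| < 6) (h : Q + t ∈ Orb Q) : t = 0 := by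
  obtain ⟨n, hn⟩ := h
  have h1 : t = 6 * (n : ℝ) := by linarith
  obtain ⟨h2, h3⟩ := abs_lt.1 ht
  have h4 : n = 0 := by
    have a1 : (n : ℝ) < 1 := by linarith
    have a2 : (-1 : ℝ) < n := by linarith
    have b1 : n < 1 := by exact_mod_cast a1
    have b2 : -1 < n := by exact_mod_cast a2
    omega
  rw [h1, h4]; simp

variable {X : Fin 4 → Set ℝ} {V Q ε : ℝ} {K : Set ℝ} {m : Fin 4}

theorem PreW.perZ (R : PreW X) (n : ℤ) (l : Fin 4) (u : ℝ) :
    u + 6 * (n : ℝ) ∈ X l ↔ u ∈ X l := Per.z (fun u => R.per l u) n u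

/-! ### local lemmas -/

/-- ends away from the changed part -/
theorem end_su (hK : IsClosed K) (hε : 0 ≤ ε) {a b : Fin 4} (hQ : Q ∉ Nb K ε)
    (h : End X a b Q) : End (Su X K m ε) a b Q := by
  have ev : ∀ᶠ u in 𝓝 Q, u ∉ Nb K ε := (isClosed_nb hK hε).isOpen_compl.mem_nhds hQ
  have key : ∀ {a b : Fin 4}, Mark X a b Q → Mark (Su X K m ε) a b Q := fun {a b} h => by
    refine ⟨(su_off hQ _).2 h.mem_a, (su_off hQ _).2 h.mem_b, fun l hl =>
      h.only l ((su_off hQ _).1 hl), ?_, ?_⟩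
    · filter_upwards [h.left, nhdsWithin_le_nhds ev] with u h1 h2
      rwa [su_off h2]
    · filter_upwards [h.right, nhdsWithin_le_nhds ev] with u h1 h2
      rwa [su_off h2]
  rcases h with h | h
  · exact Or.inl (key h)
  · exact Or.inr (key h)

/-- a radius from an eventual statement on the left -/
theorem rad_left {p : ℝ → Prop} (h : ∀ᶠ u in 𝓝[<] Q, p u) :
    ∃ η, 0 < η ∧ ∀ t, 0 < t → t < η → p (Q - t) := by
  rw [eventually_nhdsWithin_iff, Metric.eventually_nhds_iff] at h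
  obtain ⟨η, h0, h1⟩ := h
  refine ⟨η, h0, fun t ht ht' => h1 ?_ (by show Q - t < Q; linarith)⟩
  rw [Real.dist_eq, show Q - t - Q = -t by ring, abs_neg, abs_of_pos ht]
  exact ht'

/-- a radius from an eventual statement on the right -/
theorem rad_right {p : ℝ → Prop} (h : ∀ᶠ u in 𝓝[>] Q, p u) :
    ∃ η, 0 < η ∧ ∀ t, 0 < t → t < η → p (Q + t) := by
  rw [eventually_nhdsWithin_iff, Metric.eventually_nhds_iff] at h
  obtain ⟨η, h0, h1⟩ := h
  refine ⟨η, h0, fun t ht ht' => h1 ?_ (by show Q < Q + t; linarith)⟩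
  rw [Real.dist_eq, show Q + t - Q = t by ring, abs_of_pos ht]
  exact ht'

theorem ev_left {p : ℝ → Prop} {η : ℝ} (h0 : 0 < η) (h : ∀ t, 0 < t → t < η → p (Q - t)) :
    ∀ᶠ u in 𝓝[<] Q, p u := by
  rw [eventually_nhdsWithin_iff, Metric.eventually_nhds_iff]
  refine ⟨η, h0, fun {u} hu hu' => ?_⟩
  have hu' : u < Q := hu'
  rw [Real.dist_eq, abs_of_neg (by linarith)] at hu
  have := h (Q - u) (by linarith) (by linarith)
  rwa [sub_sub_cancel] at this

theorem ev_right {p : ℝ → Prop} {η : ℝ} (h0 : 0 < η) (h : ∀ t, 0 < t → t < η → p (Q + t)) :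
    ∀ᶠ u in 𝓝[>] Q, p u := by
  rw [eventually_nhdsWithin_iff, Metric.eventually_nhds_iff]
  refine ⟨η, h0, fun {u} hu hu' => ?_⟩
  have hu' : Q < u := hu'
  rw [Real.dist_eq, abs_of_pos (by linarith)] at hu
  have := h (u - Q) (by linarith) (by linarith)
  rwa [add_sub_cancel] at this

/-- no letter near an angle which does not carry it -/
theorem rad_not (hX : IsClosed (X m)) (h : Q ∉ X m) : ∃ η, 0 < η ∧ ∀ t, |t| < η → Q + t ∉ X m := by
  have ev : ∀ᶠ u in 𝓝 Q, u ∉ X m := hX.isOpen_compl.mem_nhds h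
  rw [Metric.eventually_nhds_iff] at ev
  obtain ⟨η, h0, h1⟩ := ev
  exact ⟨η, h0, fun t ht => h1 (by rw [Real.dist_eq, add_sub_cancel_left]; exact ht)⟩

/-- the sides of a clean end `f|C` -/
theorem end_loc (R : PreW X) (h : End X 1 3 Q) : ∃ σ η : ℝ, (σ = 1 ∨ σ = -1) ∧ 0 < η ∧
    (∀ t, 0 < t → t < η → Q + σ * t ∉ X 3 ∧ Q - σ * t ∉ X 1) ∧
    ∀ t, |t| < η → Q + t ∉ X 0 ∧ Q + t ∉ X 2 := by
  have hn : ∀ l, l ≠ 1 → l ≠ 3 → Q ∉ X l := by
    intro l h1 h3 hl
    rcases h with h | h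
    · rcases h.only l hl with h5 | h5
      exacts [h1 h5, h3 h5]
    · rcases h.only l hl with h5 | h5
      exacts [h3 h5, h1 h5]
  obtain ⟨e0, p0, n0⟩ := rad_not (R.closed 0) (hn 0 (by decide) (by decide))
  obtain ⟨e2, p2, n2⟩ := rad_not (R.closed 2) (hn 2 (by decide) (by decide))
  rcases h with h | h
  · obtain ⟨e3, p3, n3⟩ := rad_left h.left
    obtain ⟨e4, p4, n4⟩ := rad_right h.right
    refine ⟨-1, min (min e0 e2) (min e3 e4), Or.inr rfl, by positivity, fun t h1 h2 => ?_,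
      fun t ht => ⟨n0 t (lt_of_lt_of_le ht ((min_le_left _ _).trans (min_le_left _ _))),
        n2 t (lt_of_lt_of_le ht ((min_le_left _ _).trans (min_le_right _ _)))⟩⟩
    have h3 : t < e3 := lt_of_lt_of_le h2 ((min_le_right _ _).trans (min_le_left _ _))
    have h4 : t < e4 := lt_of_lt_of_le h2 ((min_le_right _ _).trans (min_le_right _ _))
    rw [show Q + -1 * t = Q - t by ring, show Q - -1 * t = Q + t by ring]
    exact ⟨n3 t h1 h3, n4 t h1 h4⟩
  · obtain ⟨e3, p3, n3⟩ := rad_left h.left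
    obtain ⟨e4, p4, n4⟩ := rad_right h.right
    refine ⟨1, min (min e0 e2) (min e3 e4), Or.inl rfl, by positivity, fun t h1 h2 => ?_,
      fun t ht => ⟨n0 t (lt_of_lt_of_le ht ((min_le_left _ _).trans (min_le_left _ _))),
        n2 t (lt_of_lt_of_le ht ((min_le_left _ _).trans (min_le_right _ _)))⟩⟩
    have h3 : t < e3 := lt_of_lt_of_le h2 ((min_le_right _ _).trans (min_le_left _ _))
    have h4 : t < e4 := lt_of_lt_of_le h2 ((min_le_right _ _).trans (min_le_right _ _))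
    rw [one_mul]
    exact ⟨n4 t h1 h4, n3 t h1 h3⟩

theorem end_of_loc {σ η : ℝ} (hσ : σ = 1 ∨ σ = -1) (h0 : 0 < η) (h1 : Q ∈ X 1) (h3 : Q ∈ X 3)
    (ho : ∀ l, Q ∈ X l → l = 1 ∨ l = 3)
    (hs : ∀ t, 0 < t → t < η → Q + σ * t ∉ X 3 ∧ Q - σ * t ∉ X 1) : End X 1 3 Q := by
  rcases hσ with rfl | rfl
  · refine Or.inr ⟨h3, h1, fun l hl => (ho l hl).symm, ?_, ?_⟩
    · refine ev_left h0 fun t a b => ?_
      have := (hs t a b).2
      rwa [one_mul] at this
    · refine ev_right h0 fun t a b => ?_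
      have := (hs t a b).1
      rwa [one_mul] at this
  · refine Or.inl ⟨h1, h3, ho, ?_, ?_⟩
    · refine ev_left h0 fun t a b => ?_
      have := (hs t a b).1
      rwa [show Q + -1 * t = Q - t by ring] at this
    · refine ev_right h0 fun t a b => ?_
      have := (hs t a b).2
      rwa [show Q - -1 * t = Q + t by ring] at this

/-! ### the hypotheses of the reduction -/

/-- the word and its clean contacts -/
structure Hy (X : Fin 4 → Set ℝ) (V Q : ℝ) : Prop where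
  pre : PreW X
  hV : ∀ u, u ∈ X 0 → u ∈ X 2 → u ∉ X 1 → u ∈ Orb V
  hQ : ∀ u, u ∈ X 1 → u ∈ X 3 → u ∉ X 0 → u ∈ Orb Q
  eV : V ∈ X 0 → V ∈ X 2 → V ∉ X 1 → End X 0 2 V
  eQ : Q ∈ X 1 → Q ∈ X 3 → Q ∉ X 0 → End X 1 3 Q

/-- the triple letters with `A` -/
def S2 (X : Fin 4 → Set ℝ) : Set ℝ := {u | u ∈ X 0 ∧ u ∈ X 1 ∧ u ∈ X 2}

theorem isClosed_S2 (R : PreW X) : IsClosed (S2 X) :=
  (R.closed 0).inter ((R.closed 1).inter (R.closed 2))

theorem per_S2 (R : PreW X) : Per (S2 X) := fun u => by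
  unfold S2
  simp only [mem_ofPred_eq]
  rw [R.per, R.per, R.per]

/-- the neighbours of a triple letter -/
theorem nei_S2 (R : PreW X) {w : ℝ} (hw : w ∈ Nei (S2 X)) :
    w ∈ X 3 ∧ (w + 1 ∉ X 3 ∧ w - 1 ∉ X 3) ∧ w ∉ X 2 ∧ ¬ (w ∈ X 0 ∧ w ∈ X 1) := by
  have hT := R.trp
  rcases hw with hw | hw
  · obtain ⟨h0, h1, h2⟩ := hw
    obtain ⟨⟨n1, -⟩, n2, -⟩ := hT.nb _ 2 (Or.inl rfl) h0 h1 h2
    have n3 := (Trp.nb2 R hT (Or.inl rfl) h0 h1 h2).1
    rw [sub_add_cancel] at n1 n2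
    refine ⟨n1, ⟨?_, R.ac _ h2⟩, fun h5 => R.ac _ h5 n1, n2⟩
    rwa [show w - 1 + 2 = w + 1 by ring] at n3
  · obtain ⟨h0, h1, h2⟩ := hw
    obtain ⟨⟨-, n1⟩, -, n2⟩ := hT.nb _ 2 (Or.inl rfl) h0 h1 h2
    have n3 := (Trp.nb2 R hT (Or.inl rfl) h0 h1 h2).2
    rw [add_sub_cancel_right] at n1 n2
    refine ⟨n1, ⟨R.ac _ h2, ?_⟩, fun h5 => R.ac _ h5 n1, n2⟩
    rwa [show w + 1 - 2 = w - 1 by ring] at n3

theorem sub_nei {K : Set ℝ} {u : ℝ} (hu : u ∈ K) : u + 1 ∈ Nei K ∧ u - 1 ∈ Nei K :=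
  ⟨Or.inl (by rwa [add_sub_cancel_right]), Or.inr (by rwa [sub_add_cancel])⟩

/-- **step 1**: the letter `3` is written over the neighbours of the triple letters with `2` -/
theorem step1 (H : Hy X V Q) : ∃ ε Q', 0 < ε ∧ Hy (Su X (Nei (S2 X)) 3 ε) V Q' ∧
    (∀ u ∈ Nb (Nei (S2 X)) ε, u ∉ X 2) ∧
    ∀ u ∈ Nb (Nei (S2 X)) ε, u ∈ X 1 → u ∉ X 0 := by
  have R := H.pre
  have pX : ∀ l, Per (X l) := fun l u => R.per l u
  set N := Nei (S2 X) with hN
  have cN : IsClosed N := isClosed_nei (isClosed_S2 R)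
  have pN : Per N := per_nei (per_S2 R)
  obtain ⟨e2, he2, s2⟩ := sep cN (R.closed 2) pN (pX 2) fun u hu => (nei_S2 R hu).2.2.1
  -- the contacts `e|A` do not change
  have fin : ∀ {ε Q' : ℝ}, 0 < ε → ε ≤ e2 → PreW (Su X N 3 ε) →
      (∀ u ∈ Nb N ε, u ∈ X 1 → u ∉ X 0) →
      (∀ u, u ∈ Su X N 3 ε 1 → u ∈ Su X N 3 ε 3 → u ∉ X 0 → u ∈ Orb Q') →
      (Q' ∈ Su X N 3 ε 1 → Q' ∈ Su X N 3 ε 3 → Q' ∉ Su X N 3 ε 0 →
        End (Su X N 3 ε) 1 3 Q') →
      Hy (Su X N 3 ε) V Q' ∧ (∀ u ∈ Nb N ε, u ∉ X 2) ∧ ∀ u ∈ Nb N ε, u ∈ X 1 → u ∉ X 0 := by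
    intro ε Q' h0 hle RR h10 hq heq
    have n2 : ∀ u ∈ Nb N ε, u ∉ X 2 := fun u hu => s2 u (nb_mono hle hu)
    refine ⟨⟨RR, fun u a0 a2 a1 => ?_, fun u a1 a3 a0 => ?_, fun a0 a2 a1 => ?_, heq⟩, n2, h10⟩
    · have b2 := (su_ne (by decide) a2).1
      have b3 : u ∉ Nb N ε := fun h5 => n2 u h5 b2
      exact H.hV u ((su_off b3 _).1 a0) b2 fun h5 => a1 ((su_off b3 _).2 h5)
    · refine hq u a1 a3 fun h5 => ?_
      by_cases h6 : u ∈ Nb N ε
      · exact h10 u h6 (su_ne (by decide) a1).1 h5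
      · exact a0 ((su_off h6 _).2 h5)
    · have b2 := (su_ne (by decide) a2).1
      have b3 : V ∉ Nb N ε := fun h5 => n2 V h5 b2
      exact end_su cN h0.le b3 (H.eV ((su_off b3 _).1 a0) b2 fun h5 => a1 ((su_off b3 _).2 h5))
  by_cases hc : ∀ u ∈ N, u ∉ X 1
  · -- no neighbour carries `1`
    obtain ⟨e1, he1, s1⟩ := sep cN (R.closed 1) pN (pX 1) hc
    obtain ⟨ε, hε, hle, RR⟩ := exists_su R cN pN (m := 3) (fun w hw => (nei_S2 R hw).1)
      (fun w hw => (nei_S2 R hw).2.1) (lt_min he1 he2)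
    have n1 : ∀ u ∈ Nb N ε, u ∉ X 1 := fun u hu =>
      s1 u (nb_mono (hle.trans (min_le_left _ _)) hu)
    refine ⟨ε, Q, hε, fin hε (hle.trans (min_le_right _ _)) RR
      (fun u hu h1 => absurd h1 (n1 u hu)) (fun u a1 a3 a0 => ?_) (fun a1 a3 a0 => ?_)⟩
    · have b1 := (su_ne (by decide) a1).1
      have b3 : u ∉ Nb N ε := fun h5 => n1 u h5 b1
      exact H.hQ u b1 ((su_off b3 _).1 a3) a0
    · have b1 := (su_ne (by decide) a1).1
      have b3 : Q ∉ Nb N ε := fun h5 => n1 Q h5 b1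
      exact end_su cN hε.le b3
        (H.eQ b1 ((su_off b3 _).1 a3) fun h5 => a0 ((su_off b3 _).2 h5))
  · -- `Q` is a neighbour
    push Not at hc
    obtain ⟨w₀, hw₀, hw₁⟩ := hc
    have hsub : ∀ u ∈ N, u ∈ X 1 → u ∈ Orb Q := fun u hu h1 =>
      H.hQ u h1 (nei_S2 R hu).1 fun h5 => (nei_S2 R hu).2.2.2 ⟨h5, h1⟩
    obtain ⟨n₀, hn₀⟩ := hsub w₀ hw₀ hw₁
    have hQN : Q ∈ N := by
      rw [hn₀] at hw₀
      exact (Per.z pN n₀ Q).1 hw₀
    have hQ1 : Q ∈ X 1 := by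
      rw [hn₀] at hw₁
      exact (R.perZ n₀ 1 Q).1 hw₁
    have hQ3 := (nei_S2 R hQN).1
    have hQ0 : Q ∉ X 0 := fun h5 => (nei_S2 R hQN).2.2.2 ⟨h5, hQ1⟩
    obtain ⟨σ, η, hσ, hη, hs, hz⟩ := end_loc R (H.eQ hQ1 hQ3 hQ0)
    have hσ2 : σ * σ = 1 := by rcases hσ with rfl | rfl <;> norm_num
    have hσa : |σ| = 1 := by rcases hσ with rfl | rfl <;> norm_num
    -- the neighbours away from `Q`
    have hη2 : 0 < η / 2 := by linarith
    set F := N ∩ (No (Orb Q) (η / 2))ᶜ with hF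
    have cF : IsClosed F := cN.inter isOpen_no.isClosed_compl
    have pF : Per F := fun u => by
      rw [hF, mem_inter_iff, mem_inter_iff, pN, mem_compl_iff, mem_compl_iff,
        (per_orb Q).no (η / 2) u]
    obtain ⟨e1, he1, s1⟩ := sep cF (R.closed 1) pF (pX 1) fun u hu h1 =>
      hu.2 (sub_no hη2 (hsub u hu.1 h1))
    obtain ⟨ε, hε, hle, RR⟩ := exists_su R cN pN (m := 3) (fun w hw => (nei_S2 R hw).1)
      (fun w hw => (nei_S2 R hw).2.1) (lt_min (lt_min he1 he2) (show 0 < η / 4 by linarith))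
    have l1 : ε ≤ e1 := hle.trans ((min_le_left _ _).trans (min_le_left _ _))
    have l2 : ε ≤ e2 := hle.trans ((min_le_left _ _).trans (min_le_right _ _))
    have l3 : ε ≤ η / 4 := hle.trans (min_le_right _ _)
    -- a neighbour near `Q` is on the side of `3`
    have side : ∀ r, |r| < η → Q + r ∈ N → σ * r ≤ 0 := by
      intro r hr hrN
      by_contra hcon
      push Not at hcon
      have h1 : |r| = σ * r := by
        rcases hσ with rfl | rfl
        · rw [one_mul] at hcon ⊢; exact abs_of_pos hcon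
        · have : r < 0 := by linarith
          rw [abs_of_neg this]; ring
      refine (hs (σ * r) hcon (h1 ▸ hr)).1 ?_
      rw [← mul_assoc, hσ2, one_mul]
      exact (nei_S2 R hrN).1
    -- an angle near `Q` with `1` is on the other side
    have side1 : ∀ r, |r| < η → Q + r ∈ X 1 → 0 ≤ σ * r := by
      intro r hr hr1
      by_contra hcon
      push Not at hcon
      have h1 : |r| = -(σ * r) := by
        rcases hσ with rfl | rfl
        · rw [one_mul] at hcon ⊢; exact abs_of_neg hcon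
        · have : 0 < r := by linarith
          rw [abs_of_pos this]; ring
      refine (hs (-(σ * r)) (by linarith) (h1 ▸ hr)).2 ?_
      have e : Q - σ * -(σ * r) = Q + r := by
        linear_combination r * hσ2
      rw [e]; exact hr1
    have abs_eq : ∀ r, 0 ≤ σ * r → |r| = σ * r := by
      intro r hr
      rcases hσ with rfl | rfl
      · rw [one_mul] at hr ⊢; exact abs_of_nonneg hr
      · rw [abs_of_nonpos (by linarith)]; ring
    -- distance to a neighbour, seen from the side of `1`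
    have far : ∀ r s, |r| < η → Q + r ∈ N → 0 ≤ σ * s → |s - r| = σ * s - σ * r := by
      intro r s h1 h2 h3
      have h4 := side r h1 h2
      rw [abs_eq (s - r) (by rw [mul_sub]; linarith)]
      ring
    -- the angles with `1` which are near a neighbour
    have key : ∀ u ∈ Nb N ε, u ∈ X 1 → ∃ n : ℤ, ∃ s, 0 ≤ σ * s ∧ σ * s ≤ ε ∧
        u = Q + s + 6 * (n : ℝ) := by
      rintro u ⟨w, hw, huw⟩ h1
      have hwF : w ∉ F := fun h5 => s1 u ⟨w, h5, huw.trans l1⟩ h1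
      have hwO : w ∈ No (Orb Q) (η / 2) := by
        by_contra h5
        exact hwF ⟨hw, h5⟩
      obtain ⟨q, ⟨n, hn⟩, hwq⟩ := hwO
      have e1 : Q + (w - q) ∈ N := by
        have : w = Q + (w - q) + 6 * (n : ℝ) := by rw [hn]; ring
        rw [this] at hw
        exact (Per.z pN n _).1 hw
      have e2 : u = Q + (u - q) + 6 * (n : ℝ) := by rw [hn]; ring
      have e3 : Q + (u - q) ∈ X 1 := by
        rw [e2] at h1
        exact (R.perZ n 1 _).1 h1
      have hwq' : |w - q| < η := by linarith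
      have e4 := side (w - q) hwq' e1
      have h9 : |u - q| ≤ |u - w| + |w - q| := by
        have := abs_add_le (u - w) (w - q)
        rwa [show u - w + (w - q) = u - q by ring] at this
      have e5 : 0 ≤ σ * (u - q) := side1 _ (by linarith) e3
      refine ⟨n, u - q, e5, ?_, e2⟩
      have e6 := far (w - q) (u - q) hwq' e1 e5
      rw [show u - q - (w - q) = u - w by ring] at e6
      linarith
    have h10 : ∀ u ∈ Nb N ε, u ∈ X 1 → u ∉ X 0 := by
      intro u hu h1 h0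
      obtain ⟨n, s, k1, k2, rfl⟩ := key u hu h1
      refine (hz s ?_).1 ((R.perZ n 0 _).1 h0)
      rw [abs_eq s k1]
      linarith
    -- the new end
    set P := Q + σ * ε with hP
    have hσσ : ∀ x : ℝ, σ * (σ * x) = x := fun x => by rw [← mul_assoc, hσ2, one_mul]
    -- distance from `Q + σ * s` to the neighbours
    have dist_N : ∀ s, 0 ≤ s → s < η / 2 → ∀ w ∈ N, |Q + σ * s - w| ≤ ε → s ≤ |Q + σ * s - w| := by
      intro s h1 h2 w hw h3
      have h4 : |w - Q| < η := by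
        have h5 : |σ * s| = s := by rw [abs_mul, hσa, one_mul, abs_of_nonneg h1]
        have := abs_add_le (w - (Q + σ * s)) (σ * s)
        rw [show w - (Q + σ * s) + σ * s = w - Q by ring, h5] at this
        have h8 := abs_sub_comm w (Q + σ * s)
        linarith
      have h5 : Q + (w - Q) ∈ N := by rwa [add_sub_cancel]
      have h6 := far (w - Q) (σ * s) h4 h5 (by rw [hσσ]; exact h1)
      have h7 := side (w - Q) h4 h5
      rw [show σ * s - (w - Q) = Q + σ * s - w by ring, hσσ] at h6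
      linarith
    have hPnb : P ∈ Nb N ε := ⟨Q, hQN, by
      rw [hP, add_sub_cancel_left, abs_mul, hσa, one_mul, abs_of_pos hε]⟩
    have hPno : P ∉ No N ε := by
      rintro ⟨w, hw, h5⟩
      have := dist_N ε hε.le (by linarith) w hw h5.le
      rw [← hP] at this
      linarith
    have hPs : |σ * ε| < η := by rw [abs_mul, hσa, one_mul, abs_of_pos hε]; linarith
    have hP1 : P ∈ X 1 := by
      obtain ⟨l, hl⟩ := R.cover P
      have h0 := hz _ hPs
      have h3 := (hs ε hε (by linarith)).1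
      fin_cases l
      · exact absurd hl h0.1
      · exact hl
      · exact absurd hl h0.2
      · exact absurd hl h3
    refine ⟨ε, P, hε, fin hε l2 RR h10 (fun u a1 a3 a0 => ?_) (fun _ _ _ => ?_)⟩
    · obtain ⟨b1, b2⟩ := su_ne (by decide) a1
      have b4 : u ∈ Nb N ε := by
        by_contra h5
        obtain ⟨n, hn⟩ := H.hQ u b1 ((su_off h5 _).1 a3) a0
        refine b2 (sub_no hε ?_)
        rw [hn]
        exact (Per.z pN n Q).2 hQN
      obtain ⟨n, s, k1, k2, k3⟩ := key u b4 b1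
      have k4 : σ * s = ε := by
        refine le_antisymm k2 ?_
        by_contra hcon
        push Not at hcon
        refine b2 ⟨Q + 6 * (n : ℝ), (Per.z pN n Q).2 hQN, ?_⟩
        rw [k3, show Q + s + 6 * (n : ℝ) - (Q + 6 * (n : ℝ)) = s by ring, abs_eq s k1]
        exact hcon
      refine ⟨n, ?_⟩
      rw [k3, hP, ← k4, hσσ]
    · refine end_of_loc hσ (η := min (η / 4) ε) (by positivity) (Or.inl ⟨hP1, hPno⟩)
        (Or.inr ⟨rfl, hPnb⟩) (fun l hl => ?_) (fun t ht ht' => ?_)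
      · by_cases h3 : l = 3
        · exact Or.inr h3
        · have h5 := (su_ne h3 hl).1
          have h0 := hz _ hPs
          fin_cases l
          · exact absurd h5 h0.1
          · exact Or.inl rfl
          · exact absurd h5 h0.2
          · exact absurd rfl h3
      · have t1 : t < η / 4 := lt_of_lt_of_le ht' (min_le_left _ _)
        have t2 : t < ε := lt_of_lt_of_le ht' (min_le_right _ _)
        constructor
        · have e : P + σ * t = Q + σ * (ε + t) := by rw [hP]; ring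
          rw [e]
          have h5 : Q + σ * (ε + t) ∉ Nb N ε := by
            rintro ⟨w, hw, h6⟩
            have := dist_N (ε + t) (by linarith) (by linarith) w hw h6
            linarith
          rw [su_off h5]
          exact (hs (ε + t) (by linarith) (by linarith)).1
        · intro h5
          refine (su_ne (by decide) h5).2 ⟨Q, hQN, ?_⟩
          rw [show P - σ * t - Q = σ * (ε - t) by rw [hP]; ring, abs_mul, hσa, one_mul,
            abs_of_pos (by linarith)]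
          linarith

/-- **step 2**: the letter `1` is written over the triple letters with `2` -/
theorem step2 (H : Hy X V Q) (hn : ∀ u ∈ S2 X, u + 1 ∉ X 1 ∧ u - 1 ∉ X 1) :
    ∃ ε, 0 < ε ∧ Hy (Su X (S2 X) 1 ε) V Q ∧ (∀ u, u ∉ S2 (Su X (S2 X) 1 ε)) ∧
      ∀ u ∈ Nb (S2 X) ε, u ∉ X 3 := by
  have R := H.pre
  have pX : ∀ l, Per (X l) := fun l u => R.per l u
  set K := S2 X with hK
  have cK : IsClosed K := isClosed_S2 R
  have pK : Per K := per_S2 R
  obtain ⟨e3, he3, s3⟩ := sep cK (R.closed 3) pK (pX 3) fun u hu => R.ac u hu.2.2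
  obtain ⟨e0, he0, s0⟩ : ∃ e, 0 < e ∧ ∀ u ∈ Nb K e, u ∈ X 0 → u ∈ X 2 → u ∈ X 1 := by
    by_cases hD : V ∈ X 1
    · refine ⟨1, one_pos, fun u _ h0 h2 => ?_⟩
      by_contra h1
      obtain ⟨n, rfl⟩ := H.hV u h0 h2 h1
      exact h1 ((R.perZ n 1 V).2 hD)
    · obtain ⟨e, he, s⟩ := sep cK (isClosed_orb V) pK (per_orb V) fun u hu h5 => by
        obtain ⟨n, rfl⟩ := h5
        exact hD ((R.perZ n 1 V).1 hu.2.1)
      refine ⟨e, he, fun u hu h0 h2 => ?_⟩
      by_contra h1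
      exact s u hu (H.hV u h0 h2 h1)
  obtain ⟨ε, hε, hle, RR⟩ := exists_su R cK pK (m := 1) (fun w hw => hw.2.1) hn (lt_min he3 he0)
  have n3 : ∀ u ∈ Nb K ε, u ∉ X 3 := fun u hu => s3 u (nb_mono (hle.trans (min_le_left _ _)) hu)
  have n0 : ∀ u ∈ Nb K ε, u ∈ X 0 → u ∈ X 2 → u ∈ X 1 := fun u hu =>
    s0 u (nb_mono (hle.trans (min_le_right _ _)) hu)
  refine ⟨ε, hε, ⟨RR, fun u a0 a2 a1 => ?_, fun u a1 a3 a0 => ?_, fun a0 a2 a1 => ?_,
    fun a1 a3 a0 => ?_⟩, fun u hu => ?_, n3⟩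
  · have b : u ∉ Nb K ε := fun h5 => a1 (su_m h5)
    exact H.hV u ((su_off b _).1 a0) ((su_off b _).1 a2) fun h5 => a1 ((su_off b _).2 h5)
  · have b : u ∉ Nb K ε := fun h5 => n3 u h5 (su_ne (by decide) a3).1
    exact H.hQ u ((su_off b _).1 a1) ((su_off b _).1 a3) fun h5 => a0 ((su_off b _).2 h5)
  · have b : V ∉ Nb K ε := fun h5 => a1 (su_m h5)
    exact end_su cK hε.le b (H.eV ((su_off b _).1 a0) ((su_off b _).1 a2)
      fun h5 => a1 ((su_off b _).2 h5))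
  · have b : Q ∉ Nb K ε := fun h5 => n3 Q h5 (su_ne (by decide) a3).1
    exact end_su cK hε.le b (H.eQ ((su_off b _).1 a1) ((su_off b _).1 a3)
      fun h5 => a0 ((su_off b _).2 h5))
  · obtain ⟨h0, h1, h2⟩ := hu
    obtain ⟨b0, c0⟩ := su_ne (by decide) h0
    have b2 := (su_ne (by decide) h2).1
    have b1 : u ∈ X 1 := by
      by_cases h5 : u ∈ Nb K ε
      · exact n0 u h5 b0 b2
      · exact (su_off h5 _).1 h1
    exact c0 (sub_no hε ⟨b0, b1, b2⟩)

/-- both steps -/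
theorem step (H : Hy X V Q) : ∃ (X' : Fin 4 → Set ℝ) (Q' : ℝ), Hy X' V Q' ∧ (∀ u, u ∉ S2 X') ∧
    ∀ u, u ∈ X' 0 → u ∈ X' 1 → u ∈ X' 3 → u ∈ X 0 ∧ u ∈ X 1 ∧ u ∈ X 3 := by
  obtain ⟨ε, Q', hε, H1, n2, n10⟩ := step1 H
  obtain ⟨ε', hε', H2, m2, m3⟩ := step2 H1 fun u hu => by
    obtain ⟨h0, h1, h2⟩ := hu
    have hu : u ∈ S2 X := ⟨(su_ne (by decide) h0).1, (su_ne (by decide) h1).1,
      (su_ne (by decide) h2).1⟩
    obtain ⟨k1, k2⟩ := sub_nei hu
    exact ⟨fun h5 => (su_ne (by decide) h5).2 (sub_no hε k1),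
      fun h5 => (su_ne (by decide) h5).2 (sub_no hε k2)⟩
  refine ⟨_, Q', H2, m2, fun u h0 h1 h3 => ?_⟩
  have b3 := (su_ne (by decide) h3).1
  have b : u ∉ Nb (S2 (Su X (Nei (S2 X)) 3 ε)) ε' := fun h5 => m3 u h5 b3
  rw [su_off b] at h0 h1
  have c0 := (su_ne (by decide) h0).1
  have c1 := (su_ne (by decide) h1).1
  refine ⟨c0, c1, ?_⟩
  by_cases h5 : u ∈ Nb (Nei (S2 X)) ε
  · exact absurd c0 (n10 u h5 c1)
  · exact (su_off h5 _).1 b3

/-! ### the exchange of `e, A` with `f, C` -/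

theorem preW_ex (w : PreW X) : PreW (fun l => X (ex l)) where
  closed := fun l => w.closed _
  cover := fun u => by
    obtain ⟨l, hl⟩ := w.cover u
    exact ⟨ex l, by rw [ex_ex]; exact hl⟩
  per := fun l u => w.per _ u
  anti := fun u h1 h2 => by
    have h3 : u + 3 + 3 = u + 6 := by ring
    refine w.anti (u + 3) h2 ?_
    rw [h3, w.per]
    exact h1
  ac := fun u h1 h2 => w.ac u h2 h1
  own := fun u l h1 h2 => by
    obtain ⟨m, hm, hm'⟩ := w.own u _ h1 h2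
    exact ⟨ex m, fun h => hm (by rw [← h, ex_ex]), by rw [ex_ex]; exact hm'⟩
  own' := fun u l h1 h2 => by
    obtain ⟨m, hm, hm'⟩ := w.own' u _ h1 h2
    exact ⟨ex m, fun h => hm (by rw [← h, ex_ex]), by rw [ex_ex]; exact hm'⟩
  swap := fun u l m h1 h2 h3 h4 => ex_inj _ _ (w.swap u _ _ h1 h2 h3 h4)
  dbl := fun u l m hlm h1 h2 h3 h4 => by
    obtain ⟨k1, k2⟩ := w.dbl u _ _ (fun h => hlm (ex_inj _ _ h)) h1 h2 h3 h4
    exact ⟨ex_lt _ k1, ex_lt _ k2⟩

theorem hy_ex (H : Hy X V Q) : Hy (fun l => X (ex l)) Q V :=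
  ⟨preW_ex H.pre, fun u h0 h2 h1 => H.hQ u h0 h2 h1, fun u h1 h3 h0 => H.hV u h1 h3 h0,
    fun h0 h2 h1 => end_ex (a := 0) (b := 2) (H.eQ h0 h2 h1),
    fun h1 h3 h0 => end_ex (a := 1) (b := 3) (H.eV h1 h3 h0)⟩

/-- the reduced form -/
theorem Hy.false (H : Hy X V Q) : False := by
  obtain ⟨X1, Q1, H1, n1, -⟩ := step H
  obtain ⟨X2, Q2, H2, n2, m2⟩ := step (hy_ex H1)
  have R2 := H2.pre
  have h3 : ∀ u, ¬ (u ∈ X2 0 ∧ u ∈ X2 1 ∧ u ∈ X2 3) := fun u hu => by
    obtain ⟨k0, k1, k3⟩ := m2 u hu.1 hu.2.1 hu.2.2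
    exact n1 u ⟨k1, k0, k3⟩
  have h2 : ∀ u, ¬ (u ∈ X2 0 ∧ u ∈ X2 1 ∧ u ∈ X2 2) := fun u hu => n2 u hu
  have RW : RawW X2 := by
    refine ⟨R2.closed, R2.cover, R2.per, R2.anti, R2.ac, ?_, R2.own, R2.own', R2.swap, R2.dbl⟩
    intro u l m n a1 a2 a3
    have f4 : ¬ (u ∈ X2 2 ∧ u ∈ X2 3) := fun h5 => R2.ac u h5.1 h5.2
    by_contra hc
    push Not at hc
    rcases distinct3 (fun i => u ∈ X2 i) l m n hc.1 hc.2.1 hc.2.2 a1 a2 a3 with
      h5 | h5 | h5 | h5
    exacts [h2 u h5, h3 u h5, f4 ⟨h5.2.1, h5.2.2⟩, f4 ⟨h5.2.1, h5.2.2⟩]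
  exact W2r RW Q1 Q2 (fun u a0 a2 => H2.hV u a0 a2 fun a1 => h2 u ⟨a0, a1, a2⟩)
    (fun u a1 a3 => H2.hQ u a1 a3 fun a0 => h3 u ⟨a0, a1, a3⟩)
    (fun a0 a2 => H2.eV a0 a2 fun a1 => h2 _ ⟨a0, a1, a2⟩)
    (fun a1 a3 => H2.eQ a1 a3 fun a0 => h3 _ ⟨a0, a1, a3⟩)

/-! ### pinches -/

/-- an interval covered by two disjoint closed sets -/
theorem one_of_two {s A B : Set ℝ} (hs : IsPreconnected s) (hA : IsClosed A) (hB : IsClosed B)
    (hc : ∀ u ∈ s, u ∈ A ∨ u ∈ B) (hd : ∀ u ∈ s, u ∈ A → u ∉ B) :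
    (∀ u ∈ s, u ∉ A) ∨ (∀ u ∈ s, u ∉ B) := by
  by_contra hcon
  push Not at hcon
  obtain ⟨⟨x, hx, hxA⟩, y, hy, hyB⟩ := hcon
  obtain ⟨z, hz, hzA, hzB⟩ := isPreconnected_closed_iff.1 hs A B hA hB hc ⟨x, hx, hxA⟩ ⟨y, hy, hyB⟩
  exact hd z hz hzA hzB

/-- a clean contact `f|C` which is not an end is removed -/
theorem pinch (R : PreW X) (hi : ∀ u ∈ X 3, ∃ᶠ v in 𝓝[≠] u, v ∈ X 3)
    (hQ : ∀ u, u ∈ X 1 → u ∈ X 3 → u ∉ X 0 → u ∈ Orb Q) : ∃ X' : Fin 4 → Set ℝ, PreW X' ∧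
      (∀ l, l ≠ 1 → X' l = X l) ∧ X' 1 ⊆ X 1 ∧ (∀ u ∈ X 0, u ∈ X 1 → u ∈ X' 1) ∧
      (Q ∈ X' 1 → Q ∈ X' 3 → Q ∉ X' 0 → End X' 1 3 Q) := by
  by_cases c : Q ∈ X 1 ∧ Q ∈ X 3 ∧ Q ∉ X 0
  swap
  · exact ⟨X, R, fun _ _ => rfl, subset_rfl, fun _ _ h => h,
      fun h1 h3 h0 => absurd ⟨h1, h3, h0⟩ c⟩
  obtain ⟨q1, q3, q0⟩ := c
  have q2 : Q ∉ X 2 := fun h => R.ac _ h q3
  obtain ⟨e0, p0, n0⟩ := rad_not (R.closed 0) q0
  obtain ⟨e2, p2, n2⟩ := rad_not (R.closed 2) q2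
  set η := min (min e0 e2) 1 with hη
  have hη0 : 0 < η := by positivity
  have hη1 : η ≤ 1 := min_le_right _ _
  have N0 : ∀ t, |t| < η → Q + t ∉ X 0 := fun t ht =>
    n0 t (lt_of_lt_of_le ht ((min_le_left _ _).trans (min_le_left _ _)))
  have N2 : ∀ t, |t| < η → Q + t ∉ X 2 := fun t ht =>
    n2 t (lt_of_lt_of_le ht ((min_le_left _ _).trans (min_le_right _ _)))
  have cov : ∀ t, |t| < η → Q + t ∈ X 1 ∨ Q + t ∈ X 3 := fun t ht => by
    obtain ⟨l, hl⟩ := R.cover (Q + t)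
    fin_cases l
    · exact absurd hl (N0 t ht)
    · exact Or.inl hl
    · exact absurd hl (N2 t ht)
    · exact Or.inr hl
  have dis : ∀ t, |t| < η → t ≠ 0 → Q + t ∈ X 1 → Q + t ∉ X 3 := fun t ht h0 h1 h3 =>
    h0 (orb_eq (by linarith) (hQ _ h1 h3 (N0 t ht)))
  have only : ∀ l, Q ∈ X l → l = 1 ∨ l = 3 := by
    intro l hl
    fin_cases l
    · exact absurd hl q0
    · exact Or.inl rfl
    · exact absurd hl q2
    · exact Or.inr rfl
  have left : (∀ u ∈ Ioo (Q - η) Q, u ∉ X 1) ∨ (∀ u ∈ Ioo (Q - η) Q, u ∉ X 3) := by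
    refine one_of_two isPreconnected_Ioo (R.closed 1) (R.closed 3) (fun u hu => ?_)
      fun u hu h1 => ?_
    · have := cov (u - Q) (by rw [abs_of_neg (by linarith [hu.2])]; linarith [hu.1])
      rwa [add_sub_cancel] at this
    · have := dis (u - Q) (by rw [abs_of_neg (by linarith [hu.2])]; linarith [hu.1])
        (by linarith [hu.2] |> fun h => ne_of_lt h) (by rwa [add_sub_cancel])
      rwa [add_sub_cancel] at this
  have right : (∀ u ∈ Ioo Q (Q + η), u ∉ X 1) ∨ (∀ u ∈ Ioo Q (Q + η), u ∉ X 3) := by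
    refine one_of_two isPreconnected_Ioo (R.closed 1) (R.closed 3) (fun u hu => ?_)
      fun u hu h1 => ?_
    · have := cov (u - Q) (by rw [abs_of_pos (by linarith [hu.1])]; linarith [hu.2])
      rwa [add_sub_cancel] at this
    · have := dis (u - Q) (by rw [abs_of_pos (by linarith [hu.1])]; linarith [hu.2])
        (by have : 0 < u - Q := by linarith [hu.1]
            exact this.ne') (by rwa [add_sub_cancel])
      rwa [add_sub_cancel] at this
  have tl : ∀ {m}, (∀ u ∈ Ioo (Q - η) Q, u ∉ X m) → ∀ t, 0 < t → t < η → Q - t ∉ X m :=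
    fun {m} h t h1 h2 => h _ ⟨by linarith, by linarith⟩
  have tr : ∀ {m}, (∀ u ∈ Ioo Q (Q + η), u ∉ X m) → ∀ t, 0 < t → t < η → Q + t ∉ X m :=
    fun {m} h t h1 h2 => h _ ⟨by linarith, by linarith⟩
  have same : End X 1 3 Q → ∃ X' : Fin 4 → Set ℝ, PreW X' ∧
      (∀ l, l ≠ 1 → X' l = X l) ∧ X' 1 ⊆ X 1 ∧ (∀ u ∈ X 0, u ∈ X 1 → u ∈ X' 1) ∧
      (Q ∈ X' 1 → Q ∈ X' 3 → Q ∉ X' 0 → End X' 1 3 Q) := fun h =>
    ⟨X, R, fun _ _ => rfl, subset_rfl, fun _ _ h => h, fun _ _ _ => h⟩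
  rcases left with L1 | L3 <;> rcases right with R1 | R3
  rotate_left
  · -- left `3`, right `1`
    exact same (Or.inr ⟨q3, q1, fun l hl => (only l hl).symm, ev_left hη0 (tl L1),
      ev_right hη0 (tr R3)⟩)
  · -- left `1`, right `3`
    exact same (Or.inl ⟨q1, q3, only, ev_left hη0 (tl L3), ev_right hη0 (tr R1)⟩)
  · -- `3` isolated
    exfalso
    refine hi Q q3 ?_
    rw [eventually_nhdsWithin_iff, Metric.eventually_nhds_iff]
    refine ⟨η, hη0, fun {v} hv hv' => ?_⟩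
    rw [Real.dist_eq] at hv
    rcases lt_or_gt_of_ne (show v ≠ Q from hv') with h | h
    · rw [abs_of_neg (by linarith)] at hv
      exact L3 v ⟨by linarith, h⟩
    · rw [abs_of_pos (by linarith)] at hv
      exact R3 v ⟨h, by linarith⟩
  · -- `1` isolated
    have pure1 : ∀ t, |t| < η → t ≠ 0 → Q + t ∉ X 1 := by
      intro t ht h0
      rcases lt_or_gt_of_ne h0 with h | h
      · rw [abs_of_neg h] at ht
        have := tl L1 (-t) (by linarith) ht
        rwa [sub_neg_eq_add] at this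
      · rw [abs_of_pos h] at ht
        exact tr R1 t h ht
    have mem3 : ∀ t, |t| < η → Q + t ∈ X 3 := by
      intro t ht
      by_cases h0 : t = 0
      · rw [h0, add_zero]; exact q3
      · rcases cov t ht with h | h
        · exact absurd h (pure1 t ht h0)
        · exact h
    have only3 : ∀ t, |t| < η → t ≠ 0 → ∀ m, Q + t ∈ X m → m = 3 := by
      intro t ht h0 m hm
      fin_cases m
      · exact absurd hm (N0 t ht)
      · exact absurd hm (pure1 t ht h0)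
      · exact absurd hm (N2 t ht)
      · rfl
    -- `Q ± 1` do not carry `3`
    have nb1 : Q + 1 ∉ X 3 := by
      intro h
      refine hi _ h ?_
      rw [eventually_nhdsWithin_iff, Metric.eventually_nhds_iff]
      refine ⟨η, hη0, fun {v} hv hv' hv3 => ?_⟩
      rw [Real.dist_eq] at hv
      have hv' : v ≠ Q + 1 := hv'
      have e1 : Q + (v - (Q + 1)) = v - 1 := by ring
      have hne : v - (Q + 1) ≠ 0 := fun h => hv' (by linarith)
      have k1 := mem3 _ hv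
      obtain ⟨m, hm, hm'⟩ := R.own (v - 1) 3 (e1 ▸ k1) (by rwa [sub_add_cancel])
      rw [← e1] at hm'
      exact hm (only3 _ hv hne m hm')
    have nb2 : Q - 1 ∉ X 3 := by
      intro h
      refine hi _ h ?_
      rw [eventually_nhdsWithin_iff, Metric.eventually_nhds_iff]
      refine ⟨η, hη0, fun {v} hv hv' hv3 => ?_⟩
      rw [Real.dist_eq] at hv
      have hv' : v ≠ Q - 1 := hv'
      have e1 : Q + (v - (Q - 1)) = v + 1 := by ring
      have hne : v - (Q - 1) ≠ 0 := fun h => hv' (by linarith)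
      have k1 := mem3 _ hv
      obtain ⟨m, hm, hm'⟩ := R.own' v 3 hv3 (e1 ▸ k1)
      rw [← e1] at hm'
      exact hm (only3 _ hv hne m hm')
    set O := No (Orb Q) η with hO
    have pO : Per O := (per_orb Q).no η
    -- the points of `X 1` in `O`
    have inO : ∀ u ∈ O, u ∈ X 1 → u ∈ Orb Q := by
      rintro u ⟨q, ⟨n, hn⟩, hu⟩ h1
      have e : u = Q + (u - q) + 6 * (n : ℝ) := by rw [hn]; ring
      rw [e] at h1
      have h2 := (R.perZ n 1 _).1 h1
      by_cases h0 : u - q = 0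
      · exact ⟨n, by linarith⟩
      · exact absurd h2 (pure1 _ hu h0)
    have orbO : ∀ u, u ∈ Orb Q → u ∉ X 0 ∧ u ∉ X 2 ∧ u + 1 ∉ X 3 ∧ u - 1 ∉ X 3 := by
      rintro u ⟨n, rfl⟩
      refine ⟨fun h => q0 ((R.perZ n 0 _).1 h), fun h => q2 ((R.perZ n 2 _).1 h), fun h => nb1 ?_,
        fun h => nb2 ?_⟩
      · rw [show Q + 6 * (n : ℝ) + 1 = Q + 1 + 6 * (n : ℝ) by ring] at h
        exact (R.perZ n 3 _).1 h
      · rw [show Q + 6 * (n : ℝ) - 1 = Q - 1 + 6 * (n : ℝ) by ring] at h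
        exact (R.perZ n 3 _).1 h
    set X' : Fin 4 → Set ℝ := fun l => if l = 1 then X 1 \ O else X l with hX'
    have x1 : ∀ u, u ∈ X' 1 ↔ u ∈ X 1 ∧ u ∉ O := fun u => by
      simp only [hX', if_true]; rfl
    have xl : ∀ l, l ≠ 1 → X' l = X l := fun l hl => by simp only [hX', if_neg hl]
    have sub : ∀ l u, u ∈ X' l → u ∈ X l := by
      intro l u hu
      by_cases hl : l = 1
      · subst hl; exact ((x1 u).1 hu).1
      · rwa [xl l hl] at hu
    have up : ∀ l u, l ≠ 1 → u ∈ X l → u ∈ X' l := fun l u hl hu => by rwa [xl l hl]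
    refine ⟨X', ⟨fun l => ?_, fun u => ?_, fun l u => ?_, fun u h2 h3 => ?_, fun u h2 h3 => ?_,
      fun u l h1 h2 => ?_, fun u l h1 h2 => ?_, fun u l m h1 h2 h3 h4 => ?_,
      fun u l m hlm h1 h2 h3 h4 => ?_⟩, xl, fun u hu => sub 1 u hu, fun u h0 h1 => ?_,
      fun h1 _ _ => ?_⟩
    · by_cases hl : l = 1
      · subst hl
        have : X' 1 = X 1 ∩ Oᶜ := by ext u; rw [x1]; rfl
        rw [this]
        exact (R.closed 1).inter isOpen_no.isClosed_compl
      · rw [xl l hl]; exact R.closed l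
    · obtain ⟨l, hl⟩ := R.cover u
      by_cases h1 : l = 1
      · subst h1
        by_cases h2 : u ∈ O
        · obtain ⟨n, rfl⟩ := inO u h2 hl
          exact ⟨3, up 3 _ (by decide) ((R.perZ n 3 _).2 q3)⟩
        · exact ⟨1, (x1 u).2 ⟨hl, h2⟩⟩
      · exact ⟨l, up l u h1 hl⟩
    · by_cases hl : l = 1
      · subst hl
        rw [x1, x1, R.per, pO]
      · rw [xl l hl]; exact R.per l u
    · exact R.anti u (sub _ _ h2) (sub _ _ h3)
    · exact R.ac u (sub _ _ h2) (sub _ _ h3)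
    · obtain ⟨m, hm, hm'⟩ := R.own u l (sub _ _ h1) (sub _ _ h2)
      by_cases h5 : m = 1
      · subst h5
        by_cases h6 : u ∈ O
        · exfalso
          obtain ⟨k0, k2, k3, -⟩ := orbO u (inO u h6 hm')
          have a1 := sub _ _ h1
          have a2 := sub _ _ h2
          fin_cases l
          · exact k0 a1
          · exact hm rfl
          · exact k2 a1
          · exact k3 a2
        · exact ⟨1, hm, (x1 u).2 ⟨hm', h6⟩⟩
      · exact ⟨m, hm, up m u h5 hm'⟩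
    · obtain ⟨m, hm, hm'⟩ := R.own' u l (sub _ _ h1) (sub _ _ h2)
      by_cases h5 : m = 1
      · subst h5
        by_cases h6 : u + 1 ∈ O
        · exfalso
          obtain ⟨k0, k2, -, k3⟩ := orbO _ (inO _ h6 hm')
          rw [add_sub_cancel_right] at k3
          have a1 := sub _ _ h1
          have a2 := sub _ _ h2
          fin_cases l
          · exact k0 a2
          · exact hm rfl
          · exact k2 a2
          · exact k3 a1
        · exact ⟨1, hm, (x1 _).2 ⟨hm', h6⟩⟩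
      · exact ⟨m, hm, up m _ h5 hm'⟩
    · exact R.swap u l m (sub _ _ h1) (sub _ _ h2) (sub _ _ h3) (sub _ _ h4)
    · exact R.dbl u l m hlm (sub _ _ h1) (sub _ _ h2) (sub _ _ h3) (sub _ _ h4)
    · refine (x1 u).2 ⟨h1, fun h2 => ?_⟩
      exact (orbO u (inO u h2 h1)).1 h0
    · exfalso
      exact ((x1 Q).1 h1).2 (sub_no hη0 ⟨0, by simp⟩)

/-- the end is not changed -/
theorem end_congr {Y : Fin 4 → Set ℝ} {a b : Fin 4} (ha : Y a = X a) (hb : Y b = X b)
    (hs : ∀ l, Y l ⊆ X l) (h : End X a b Q) : End Y a b Q := by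
  have key : ∀ {a b : Fin 4}, Y a = X a → Y b = X b → Mark X a b Q → Mark Y a b Q :=
    fun {a b} ha hb h => ⟨by rw [ha]; exact h.mem_a, by rw [hb]; exact h.mem_b,
      fun l hl => h.only l (hs l hl), by rw [hb]; exact h.left, by rw [ha]; exact h.right⟩
  rcases h with h | h
  · exact Or.inl (key ha hb h)
  · exact Or.inr (key hb ha h)

/-- **At most one clean contact `e|A` and at most one clean contact `f|C` is impossible**, triple
letters allowed, without the axiom `three`. -/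
theorem PreW.L2x (R : PreW X) (hi2 : ∀ u ∈ X 2, ∃ᶠ v in 𝓝[≠] u, v ∈ X 2)
    (hi3 : ∀ u ∈ X 3, ∃ᶠ v in 𝓝[≠] u, v ∈ X 3) (V Q : ℝ)
    (hVu : ∀ u, u ∈ X 0 → u ∈ X 2 → u ∉ X 1 → ∃ n : ℤ, u = V + 6 * n)
    (hQu : ∀ u, u ∈ X 1 → u ∈ X 3 → u ∉ X 0 → ∃ n : ℤ, u = Q + 6 * n) : False := by
  obtain ⟨X1, R1, xl, s1, m1, e1⟩ := pinch (Q := Q) R hi3 hQu
  have x0 := xl 0 (by decide)
  have x2 := xl 2 (by decide)
  have x3 := xl 3 (by decide)
  have sub : ∀ l, X1 l ⊆ X l := fun l => by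
    by_cases h : l = 1
    · subst h; exact s1
    · rw [xl l h]
  obtain ⟨X2, R2, yl, t1, m2, e2⟩ := pinch (Q := V) (preW_ex R1) (by
    show ∀ u ∈ X1 2, ∃ᶠ v in 𝓝[≠] u, v ∈ X1 2
    rw [x2]; exact hi2) (by
    show ∀ u, u ∈ X1 0 → u ∈ X1 2 → u ∉ X1 1 → u ∈ Orb V
    rw [x0, x2]
    intro u a0 a2 a1
    exact hVu u a0 a2 fun h => a1 (m1 u a0 h))
  have y0 : X2 0 = X1 1 := yl 0 (by decide)
  have y2 : X2 2 = X1 3 := yl 2 (by decide)
  have y3 : X2 3 = X1 2 := yl 3 (by decide)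
  have t1 : X2 1 ⊆ X1 0 := t1
  have m2 : ∀ u ∈ X1 1, u ∈ X1 0 → u ∈ X2 1 := m2
  have sub2 : ∀ l, X2 l ⊆ (fun l => X1 (ex l)) l := fun l => by
    by_cases h : l = 1
    · subst h; exact t1
    · rw [yl l h]
  -- the exchanged word
  refine Hy.false (X := X2) (V := Q) (Q := V) ⟨R2, ?_, ?_, ?_, e2⟩
  · rw [y0, y2]
    intro u a1 a3 a0
    refine hQu u (s1 a1) (x3 ▸ a3) fun h => a0 (m2 u a1 ?_)
    rw [x0]; exact h
  · rw [y0, y3]
    intro u a0 a2 a1
    have b0 : u ∈ X 0 := x0 ▸ t1 a0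
    exact hVu u b0 (x2 ▸ a2) fun h => a1 (m1 u b0 h)
  · intro a1 a3 a0
    have b1 : Q ∈ X1 1 := y0 ▸ a1
    have b3 : Q ∈ X1 3 := y2 ▸ a3
    have b0 : Q ∉ X1 0 := fun h => a0 (m2 Q b1 h)
    exact end_congr (X := fun l => X1 (ex l)) (a := 0) (b := 2) (yl 0 (by decide))
      (yl 2 (by decide)) sub2 (end_ex (a := 0) (b := 2) (e1 b1 b3 b0))

end Vale.Agent.P032.H350
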